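import Vale.Agent.P287D.Sf.Mum
import Vale.Agent.P287D.Sh.St

/-!
# P287D: the minimal model programme for surfaces, del Pezzo surfaces (statements)
-/

set_option linter.unusedVariables false

open Set

noncomputable section

namespace Vale.Agent.P287D.Su

open Sf Sh

variable (L : Type) [Field L] [Algebra ℂ L]

/-- the additional facts on a surface field which are used -/
structure Xr : Prop where
  nak : ∀ β : BD L, Nn β → Nef β
  big : ∀ β : BD L, Nef β → 0 < I2 β β → Big β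
  rr : ∃ χ : ℝ, ∀ D ∈ CarZ L, ∀ A, Nef A → I2 (cn L 2 - D) A < 0 →
    χ + I2 (D - cn L 2) D / 2 ≤ h0 D
  fd : ∀ m : Nm L, ∃ T : Finset (BD L), (∀ γ ∈ T, γ ∈ Car L) ∧ ∀ β ∈ Car L, Det m.A β →
    ∃ γ ∈ Submodule.span ℝ (T : Set (BD L)), ∀ P, dg β P = dg γ P
  pt : ∀ (m : Nm L) (T : Set (Pl L)), T.Finite → (∀ P ∈ T, 0 < dg m.A P) →
    ∃ x, dg m.A x = 0 ∧ ∀ P ∈ T, m.c P x = 0

/-- **DPV**: the degree of a weak del Pezzo surface is at most nine -/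
def DPV : Prop := For2 fun K _ _ => ∀ Λ Γ : BD K, Term 1 Λ Γ → Nef (-Γ) → I2 Γ Γ ≤ 9

/-- **VOL2**: canonical weak del Pezzo surfaces are Gorenstein of degree at most nine -/
def VOL2 : Prop := For2 fun K _ _ => ∀ Γ : BD K, Nef (-Γ) → Big (-Γ) → (∀ P, 0 ≤ dsc 2 Γ P) →
  Bdy 1 (-Γ) Γ → Γ ∈ CarZ K ∧ vol 2 (-Γ) ≤ 9

/-- **CON8**: a weak del Pezzo surface with a conic class has degree at most eight -/
def CON8 : Prop := For2 fun K _ _ => ∀ Λ Γ f : BD K, Term 1 Λ Γ → Nef (-Γ) → f ∈ CarZ K → Nef f →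
  Dsc Λ f → I2 f f = 0 → I2 Γ f < 0 → -2 ≤ I2 Γ f → I2 Γ Γ ≤ 8

/-- **MOV**: a moving class of small anticanonical degree on a smooth model -/
def MOV : Prop := For2 fun K _ _ => ∀ X k : BD K, Term 1 X k → ¬ Psef (cn K 2) →
  ∃ l ∈ CarZ K, Nef l ∧ Dsc X l ∧ I2 k l < 0 ∧
    ((I2 l l = 0 ∧ -2 ≤ I2 k l) ∨ (I2 l l = -I2 k l ∧ I2 l l ≤ 9))

end Vale.Agent.P287D.Su
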