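import Vale.Agent.P287D.Su.Dpv

/-!
# P287D: a moving class of small anticanonical degree
-/

set_option linter.unusedVariables false
set_option linter.unusedSectionVars false

open Set Function Filter Topology

noncomputable section

namespace Vale.Agent.P287D.Su

open Sf Sf.Nm

variable {L : Type} [Field L] [Algebra ℂ L] {Z β γ N D G A a b f : BD L} {P Q E : Pl L}

/-- approximation from below -/
theorem dir (t : ℝ) {δ : ℝ} (hδ : 0 < δ) (J : ℕ) : ∃ (p : ℤ) (q : ℕ), J ≤ q ∧ -δ ≤ p - q * t ∧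
    p - q * t ≤ 0 := by
  have key : ∀ ε : ℝ, 0 < ε → ∃ (p : ℤ) (q : ℕ), 1 ≤ q ∧ -ε ≤ p - q * t ∧ p - q * t ≤ 0 := by
    intro ε hε
    obtain ⟨n, hn⟩ := exists_nat_one_div_lt hε
    obtain ⟨j, k, k0, -, h⟩ := Real.exists_int_int_abs_mul_sub_le t n.succ_pos
    obtain ⟨k, rfl⟩ := Int.eq_ofNat_of_zero_le k0.le
    have k1 : 1 ≤ k := by omega
    have h' : |(k : ℝ) * t - j| < ε := by
      refine (le_trans (by simpa using h) (one_div_le_one_div_of_le (by positivity) ?_)).trans_lt hn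
      linarith
    obtain ⟨h1, h2⟩ := abs_lt.1 h'
    by_cases s : (j : ℝ) - k * t ≤ 0
    · exact ⟨j, k, k1, by linarith, s⟩
    push Not at s
    by_cases e : 1 ≤ (j : ℝ) - k * t
    · exact ⟨⌊t⌋, 1, le_rfl, by simpa using by linarith [Int.lt_floor_add_one t],
        by simpa using Int.floor_le t⟩
    push Not at e
    set η := (j : ℝ) - k * t with hη
    have i1 : 1 ≤ ⌊1 / η⌋₊ := Nat.le_floor (by rw [le_div_iff₀ s]; simpa using e.le)
    have i2 := Nat.floor_le (by positivity : 0 ≤ 1 / η)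
    have i3 := Nat.lt_floor_add_one (1 / η)
    rw [le_div_iff₀ s] at i2
    rw [div_lt_iff₀ s] at i3
    have : ((⌊1 / η⌋₊ * j - 1 : ℤ) : ℝ) - (⌊1 / η⌋₊ * k : ℕ) * t = ⌊1 / η⌋₊ * η - 1 := by
      push_cast
      rw [hη]
      ring
    exact ⟨⌊1 / η⌋₊ * j - 1, ⌊1 / η⌋₊ * k, Nat.mul_pos i1 k1, by rw [this]; linarith,
      by rw [this]; linarith⟩
  obtain ⟨p, q, a, b, c⟩ := key (δ / (J + 1)) (by positivity)
  have e : (((J + 1) * p : ℤ) : ℝ) - ((J + 1) * q : ℕ) * t = (J + 1) * (p - q * t) := by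
    push_cast
    ring
  have J0 : (0 : ℝ) < J + 1 := by positivity
  refine ⟨(J + 1) * p, (J + 1) * q, by nlinarith, ?_, ?_⟩ <;> rw [e]
  · have := mul_le_mul_of_nonneg_left b J0.le
    rwa [mul_neg, mul_div_cancel₀ _ J0.ne'] at this
  · exact mul_nonpos_of_nonneg_of_nonpos J0.le c

variable (R : Rows L) (X : Xr L) (m : Nm L)
include R

/-- an integral class which is positive on all curves of the model -/
theorem exists_amp : ∃ H ∈ CarZ L, Nn H ∧ Det m.A H ∧ Det H m.A ∧ 0 < I2 H H := by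
  obtain ⟨m₁, ⟨s, hs, -⟩, -, d⟩ := R.ex ∅ {m.A} finite_empty (finite_singleton _)
    (by simpa using m.nn.car)
  have d' := d _ rfl
  obtain ⟨H, a, b, c, -, e⟩ := m.trace R (R.isb _ m₁.nn.car)
  obtain ⟨le, nn⟩ := R.mum_nn m.nn m.pos m₁.nn a b c
  have p : ∀ P, 0 < dg m.A P → 0 < dg H P := fun P k => by
    have := R.eff _ (sub_mem a m₁.nn.car) (sub_nonneg.2 le) P (sub_eq_zero.2 (c P k))
    rw [R.sub a m₁.nn.car] at this
    linarith [d'.pos m₁.nn k.ne']
  have dd : Det H m.A := fun P k => m.nn.zero_of fun l => (p P l).ne' k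
  refine ⟨H, e fun P _ => hs ▸ CarZ.int (mx_mem_CarZ s) P, nn, b, dd, ?_⟩
  obtain ⟨G, g⟩ : Eff m₁.A := hs ▸ eff_mx s
  have g1 : I2 H H = I2 m₁.A H := I2_congr fun P k => c P (b.pos m.nn k)
  have g2 : I2 m₁.A m₁.A ≤ I2 H m₁.A := by
    have := R.eff_nn (Eff.of_nonneg (sub_nonneg.2 le)) (R.isb _ (sub_mem a m₁.nn.car)) m₁.nn
    rwa [R.sub_l (R.isb _ a) (R.isb _ m₁.nn.car) m₁.nn.car, sub_nonneg] at this
  rw [g1, R.symm _ m₁.nn.car _ a]
  exact m₁.pos.trans_le g2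

include X

/-- the nef threshold on a minimal model -/
theorem thr (hm : ∀ E, ¬ m.Neg E) (hk : ¬ Nn m.k) {H : BD L} (nH : Nn H) (dH : Det m.A H)
    (dH' : Det H m.A) (pH : 0 < I2 H H) : ∃ t : ℝ, 0 < t ∧ Nn ((1 : ℝ) • m.k + t • H) ∧
      I2 ((1 : ℝ) • m.k + t • H) ((1 : ℝ) • m.k + t • H) = 0 := by
  have kc := m.kcar
  let S : Set ℝ := {t | 0 ≤ t ∧ ∀ P, 0 ≤ dg m.k P + t * dg H P}
  have nS : ∀ t ∈ S, Nn ((1 : ℝ) • m.k + t • H) := fun t h =>
    ⟨lin_car kc nH.car _ _, fun P => by rw [dg_lin R kc nH.car, one_mul]; exact h.2 P⟩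
  have cl : IsClosed S := by
    have : S = Ici 0 ∩ ⋂ P, {t | 0 ≤ dg m.k P + t * dg H P} := by
      ext t
      simp [S]
    rw [this]
    exact isClosed_Ici.inter (isClosed_iInter fun P => isClosed_le continuous_const
      (continuous_const.add (continuous_id.mul continuous_const)))
  have ne : S.Nonempty := by
    obtain ⟨ε, a, b⟩ := numd R X nH pH kc (dH'.trans m.kd)
    refine ⟨ε⁻¹, by positivity, fun P => ?_⟩
    have := mul_nonneg (inv_pos.2 a).le (b.nn P)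
    rw [R.add_smul nH.car kc, mul_add, inv_mul_cancel_left₀ a.ne'] at this
    linarith
  have bd : BddBelow S := ⟨0, fun t h => h.1⟩
  have mem := cl.csInf_mem ne bd
  set t := sInf S
  have n := nS t mem
  have t0 : 0 < t := mem.1.lt_of_ne' fun e => hk ⟨kc, fun P => by simpa [e] using mem.2 P⟩
  refine ⟨t, t0, n, ((X.nn R n n).eq_or_lt.resolve_right fun pos => ?_).symm⟩
  have dn := lin_det R m.kd dH kc nH.car 1 t
  by_cases c : Det ((1 : ℝ) • m.k + t • H) H
  · obtain ⟨ε, a, b⟩ := numd R X n pos (neg_mem nH.car) (det_neg R c nH.car)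
    have : t - min ε t ∈ S := ⟨sub_nonneg.2 (min_le_right _ _), fun P => by
      have := b.nn P
      rw [R.add_smul n.car (neg_mem nH.car), dg_lin R kc nH.car, R.neg nH.car] at this
      nlinarith [mul_nonneg (sub_nonneg.2 (min_le_left ε t)) (nH.nn P)]⟩
    linarith [csInf_le bd this, lt_min a t0]
  · unfold Det at c
    push Not at c
    obtain ⟨P, a, b⟩ := c
    have hP := dH.pos m.nn b
    refine hm P (m.neg_of R hP (m.sq_neg R n.car pos dn ⟨hP, a⟩) ?_).1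
    rw [dg_lin R kc nH.car] at a
    linarith [mul_pos t0 (nH.pos_of b)]

/-- the end of the minimal model programme: a fibre class or a del Pezzo surface -/
theorem mmp_end (hm : ∀ E, ¬ m.Neg E) (hk : ¬ Nn m.k) :
    (∃ P, 0 < dg m.A P ∧ dg (m.c P) P = 0 ∧ dg m.k P < 0 ∧ -2 ≤ dg m.k P) ∨
      (Nn (-m.k) ∧ 0 < I2 m.k m.k ∧ ∀ P, 0 < dg m.A P → dg m.k P < 0) := by
  obtain ⟨H, zH, nH, dH, dH', pH⟩ := exists_amp R m
  obtain ⟨t, t0, n, sq⟩ := thr R X m hm hk nH dH dH' pH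
  have kc := m.kcar
  set W := (1 : ℝ) • m.k + t • H with hW
  have dW : Det m.A W := lin_det R m.kd dH kc nH.car 1 t
  have dgW : ∀ P, dg W P = dg m.k P + t * dg H P := fun P => by
    rw [hW, dg_lin R kc nH.car, one_mul]
  rcases (X.nn R nH n).eq_or_lt with c | c
  · have z := fun γ (h : γ ∈ Car L) => R.hi0 nH.car n.car pH c.symm sq.ge h
    have z' : ∀ P, 0 < dg m.A P → dg m.k P < 0 := fun P h => by
      have := z _ (m.car h)
      rw [m.I2_c' R h n.car dW, dgW] at this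
      linarith [mul_pos t0 (dH'.pos nH h.ne')]
    refine Or.inr ⟨⟨neg_mem kc, fun P => ?_⟩, ?_, z'⟩
    · rw [R.neg kc]
      rcases (m.nn.nn P).eq_or_lt with l | l
      · rw [m.kd P l.symm, neg_zero]
      · linarith [z' P l]
    · have a := z _ kc
      have b := z _ nH.car
      rw [hW, lin_I2 R kc nH.car kc, R.symm H nH.car _ kc] at a
      rw [hW, lin_I2 R kc nH.car nH.car] at b
      nlinarith [mul_pos (mul_pos t0 t0) pH]
  left
  obtain ⟨χ, rr⟩ := X.eff R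
  set w := I2 H W with hw
  have kW : I2 m.k W = -t * w := by
    have := (lin_I2 R kc nH.car n.car 1 t).symm.trans sq
    linarith
  have cW : I2 (cn L 2) W = -t * w := (m.I2_k dW).symm.trans kW
  obtain ⟨J, hJ⟩ := exists_nat_gt ((2 * |χ| + t * |I2 m.k H|) / (t * w / 2))
  have tw := mul_pos t0 c
  rw [div_lt_iff₀ (by positivity)] at hJ
  obtain ⟨p, q, a, b, b'⟩ := dir t (δ := t / 4) (by positivity) J
  have hD : (q : ℝ) • m.k + (p : ℝ) • H ∈ CarZ L :=
    add_mem (CarZ.nsmul m.kZ q) (CarZ.zsmul zH p)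
  set η := p - q * t with hη
  have eD : (q : ℝ) • m.k + (p : ℝ) • H = (q : ℝ) • W + η • H := by
    rw [hW, hη]
    module
  rw [eD] at hD
  have qJ : (J : ℝ) ≤ q := by exact_mod_cast a
  have DW : I2 ((q : ℝ) • W + η • H) W = η * w := by
    rw [lin_I2 R n.car nH.car n.car, sq, ← hw]
    ring
  have big : 0 < χ + (I2 ((q : ℝ) • W + η • H) ((q : ℝ) • W + η • H) -
      I2 (cn L 2) ((q : ℝ) • W + η • H)) / 2 := by
    rw [lin_lin R n.car nH.car, I2_lin R R.cnb n.car nH.car, sq, cW, R.symm W n.car H nH.car, ← hw,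
      ← m.I2_k dH]
    have e1 := neg_abs_le χ
    have e2 : η * I2 m.k H ≤ t * |I2 m.k H| :=
      (le_abs_self _).trans (by
        rw [abs_mul]
        exact mul_le_mul_of_nonneg_right (abs_le.2 ⟨by linarith, by linarith⟩) (abs_nonneg _))
    have e3 : 0 ≤ η * η * I2 H H := mul_nonneg (mul_self_nonneg _) pH.le
    have e4 : 0 ≤ (q * w) * (2 * η + t / 2) :=
      mul_nonneg (mul_nonneg q.cast_nonneg c.le) (by linarith)
    have e5 : J * (t * w / 2) ≤ q * (t * w / 2) := mul_le_mul_of_nonneg_right qJ (by positivity)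
    nlinarith
  obtain ⟨u, u0, hu⟩ := rr _ hD W n (by rw [cW, DW]; nlinarith) big
  have iD := R.isb _ (CarZ.car hD)
  have rp := hu.rep u0
  have e0 : 0 ≤ η * w := DW ▸ R.eff_nn rp.eff iD n
  have η0 : η = 0 := le_antisymm b' (nonneg_of_mul_nonneg_left e0 c)
  have q0 : (0 : ℝ) < q := by
    have : (0 : ℝ) < J * (t * w / 2) := lt_of_le_of_lt (by positivity) hJ
    exact (pos_of_mul_pos_left this (by positivity)).trans_le qJ
  obtain ⟨P, g, hP⟩ := ex_pos R rp iD nH.car (by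
    rw [lin_I2 R n.car nH.car nH.car, η0, R.symm W n.car H nH.car, ← hw, zero_mul, add_zero]
    positivity)
  have hP' := dH.pos m.nn hP.ne'
  have z : dg W P = 0 := by
    have := R.le_I2 (R.isb _ (rp.car (CarZ.car hD))) n.car
      (fun Q => mul_nonneg (rp.nonneg Q) (n.nn Q)) P
    rw [R.congr_l iD rp.prn n.car, DW.trans (by rw [η0, zero_mul] : η * w = 0)] at this
    exact le_antisymm (nonpos_of_mul_nonpos_right this g) (n.nn P)
  have k : dg m.k P < 0 := by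
    rw [dgW] at z
    linarith [mul_pos t0 hP]
  have s : dg (m.c P) P = 0 := by
    rcases lt_trichotomy (dg (m.c P) P) 0 with l | l | l
    · exact absurd (m.neg_of R hP' l k).1 (hm P)
    · exact l
    · have := R.hi0 (m.car hP') n.car (by rwa [m.I2_c hP' (m.cd P hP')])
        ((m.I2_c hP' dW).trans z) sq.ge nH.car
      rw [R.symm W n.car H nH.car] at this
      exact absurd this c.ne'
  have g0 : (0 : ℝ) ≤ pg P.κ 1 := Nat.cast_nonneg _
  exact ⟨P, hP', s, k, by linarith [m.gen P hP']⟩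

/-- **a moving class of small anticanonical degree** -/
theorem mov (h : ¬ Psef (cn L 2)) : ∃ l ∈ CarZ L, Nn l ∧ Det m.A l ∧ I2 (cn L 2) l < 0 ∧
    ((I2 l l = 0 ∧ -2 ≤ I2 (cn L 2) l) ∨ (I2 l l = -I2 (cn L 2) l ∧ I2 l l ≤ 9)) := by
  refine minimal R X (p := fun m => ∃ l ∈ CarZ L, Nn l ∧ Det m.A l ∧ I2 (cn L 2) l < 0 ∧
    ((I2 l l = 0 ∧ -2 ≤ I2 (cn L 2) l) ∨ (I2 l l = -I2 (cn L 2) l ∧ I2 l l ≤ 9))) ?_ ?_ m
  · intro m hm
    rcases mmp_end R X m hm fun k => h ((X.nak _ k).psef.mono m.k_le) with ⟨P, a, b, c, d⟩ | ⟨a, v, -⟩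
    · have e := m.cn_c R a
      exact ⟨_, m.cZ P a, c_nn R m a b.ge, m.cd P a, e ▸ c,
        Or.inl ⟨(m.I2_c a (m.cd P a)).trans b, e ▸ d⟩⟩
    · have kc := m.kcar
      have e : I2 (-m.k) (-m.k) = I2 m.k m.k := by
        rw [R.neg_l (R.isb _ kc) a.car, R.neg_r (R.isb _ kc) kc, neg_neg]
      have e' : I2 (cn L 2) (-m.k) = -I2 m.k m.k := by rw [R.neg_r R.cnb kc, m.I2_k m.kd]
      exact ⟨_, neg_mem m.kZ, a, det_neg R m.kd kc, by rw [e']; linarith,
        Or.inr ⟨by rw [e, e', neg_neg], e ▸ dpv R X m a⟩⟩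
  · rintro m E n ⟨l, a, b, c, d⟩
    exact ⟨l, a, b, (push_det R n m.nn.car (.refl _)).trans c, d⟩

end Vale.Agent.P287D.Su
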