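import Vale.Agent.P287D.Su.Num

/-!
# P287D: the degree of a weak del Pezzo surface
-/

set_option linter.unusedVariables false
set_option linter.unusedSectionVars false

open Set Function Filter Topology

noncomputable section

namespace Vale.Agent.P287D.Su

open Sf Sf.Nm

variable {L : Type} [Field L] [Algebra ℂ L] {Z β γ N D G A a b a' b' f : BD L} {P Q E : Pl L}

section bil

variable (R : Rows L)
include R

theorem I2_lin (hZ : IsB 1 Z) (ha : a ∈ Car L) (hb : b ∈ Car L) (x y : ℝ) :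
    I2 Z (x • a + y • b) = x * I2 Z a + y * I2 Z b := by
  rw [R.add_r hZ (Submodule.smul_mem _ x ha) (Submodule.smul_mem _ y hb), R.smul_r x hZ ha,
    R.smul_r y hZ hb]

theorem lin_I2 (ha : a ∈ Car L) (hb : b ∈ Car L) (hγ : γ ∈ Car L) (x y : ℝ) :
    I2 (x • a + y • b) γ = x * I2 a γ + y * I2 b γ := by
  rw [R.add_l (isB_smul x (R.isb a ha)) (isB_smul y (R.isb b hb)) hγ,
    R.smul_l x (R.isb a ha) hγ, R.smul_l y (R.isb b hb) hγ]

theorem dg_lin (ha : a ∈ Car L) (hb : b ∈ Car L) (x y : ℝ) (P : Pl L) :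
    dg (x • a + y • b) P = x * dg a P + y * dg b P := by
  rw [R.add _ (Submodule.smul_mem _ x ha) _ (Submodule.smul_mem _ y hb), R.smul x a ha,
    R.smul y b hb]

omit R in
theorem lin_car (ha : a ∈ Car L) (hb : b ∈ Car L) (x y : ℝ) : x • a + y • b ∈ Car L :=
  add_mem (Submodule.smul_mem _ x ha) (Submodule.smul_mem _ y hb)

theorem lin_lin (ha : a ∈ Car L) (hb : b ∈ Car L) (x y x' y' : ℝ) :
    I2 (x • a + y • b) (x' • a + y' • b) =
      x * x' * I2 a a + (x * y' + y * x') * I2 a b + y * y' * I2 b b := by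
  rw [lin_I2 R ha hb (lin_car ha hb _ _), I2_lin R (R.isb a ha) ha hb,
    I2_lin R (R.isb b hb) ha hb, R.symm b hb a ha]
  ring

theorem lin_det (h : Det N a) (h' : Det N b) (ha : a ∈ Car L) (hb : b ∈ Car L) (x y : ℝ) :
    Det N (x • a + y • b) := fun P e => by rw [dg_lin R ha hb, h P e, h' P e]; ring

theorem I2_int (hZ : IsB 1 Z) (iZ : IsZ Z) (hγ : γ ∈ CarZ L) : ∃ z : ℤ, I2 Z γ = z := by
  choose u hu using iZ
  choose w hw using R.int γ hγ
  have f := R.fin hZ (CarZ.car hγ)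
  refine ⟨∑ P ∈ f.toFinset, u P * w P, ?_⟩
  rw [I2_eq, finsum_eq_sum _ f]
  push_cast
  exact Finset.sum_congr rfl fun P _ => by rw [hu, hw]

theorem I2_int' (hβ : β ∈ CarZ L) (hγ : γ ∈ CarZ L) : ∃ z : ℤ, I2 β γ = z :=
  I2_int R (R.isb β (CarZ.car hβ)) (CarZ.int hβ) hγ

end bil

theorem num1 {χ v l j : ℝ} (v9 : 9 ≤ v) (l1 : l ≤ -1) (h2 : -2 ≤ l) (hj : 2 * |χ| + 2 < j) :
    0 < χ + (2 * l * j * (2 * l * j) * v + (2 * l * j * -(j * v + 1) + -(j * v + 1) * (2 * l * j)) * l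
      + -(j * v + 1) * -(j * v + 1) * 0 - (2 * l * j * v + -(j * v + 1) * l)) / 2 := by
  have := neg_abs_le χ
  have j0 : 0 ≤ j := by linarith [abs_nonneg χ]
  have e : 0 ≤ (-l - 1) * j := mul_nonneg (by linarith) j0
  have e' : 0 ≤ (-l * j) * (v + 4 * l - 1) :=
    mul_nonneg (mul_nonneg (by linarith) j0) (by linarith)
  have e2 : 2 * l * j * (2 * l * j) * v + (2 * l * j * -(j * v + 1) + -(j * v + 1) * (2 * l * j)) * l
      + -(j * v + 1) * -(j * v + 1) * 0 - (2 * l * j * v + -(j * v + 1) * l) =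
      (-l * j) * (v + 4 * l - 1) + (-l - 1) * j + j + l := by ring
  rw [e2]
  linarith

theorem num2 {v l t s c : ℝ} (v9 : 9 ≤ v) (l1 : l ≤ -1) (h2 : -2 ≤ l) (t1 : 1 ≤ t)
    (p : 2 * l * c + -v * t < 0) (k0 : 0 ≤ -c) (g : -2 ≤ s + c)
    (H : l * l * (l * l) * s + (l * l * 1 + 1 * (l * l)) * (-t * l * c + (t * v - c * l) * t) +
      1 * 1 * (-t * l * (-t * l) * v + (-t * l * (t * v - c * l) + (t * v - c * l) * (-t * l)) * l +
        (t * v - c * l) * (t * v - c * l) * 0) ≤ 0) : False := by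
  have H' : l * l * (l * l * s - 2 * t * l * c + t * t * v) ≤ 0 := by
    refine le_of_eq_of_le ?_ H
    ring
  have ll : 0 < l * l := mul_pos_of_neg_of_neg (by linarith) (by linarith)
  have H2 : l * l * s - 2 * t * l * c + t * t * v ≤ 0 := by
    by_contra e
    exact (mul_pos ll (not_le.1 e)).not_ge H'
  have q : 0 ≤ (v * t - 2 * l * c) * (2 * t + l) := mul_nonneg (by linarith) (by linarith)
  have q1 : l * l * (-2 - c) ≤ l * l * s := mul_le_mul_of_nonneg_left (by linarith) ll.le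
  have q2 : 0 ≤ -l * (v * t - 9) := mul_nonneg (by linarith) (by nlinarith)
  have q3 : 0 ≤ -l * (l + 2) := mul_nonneg (by linarith) (by linarith)
  nlinarith

theorem int_cases {v : ℝ} {s l u : ℤ} (hv : 9 < v) (l1 : 1 ≤ l) (u1 : 1 ≤ u)
    (h1 : v * s ≤ l * l) (h2 : (l : ℝ) * l < v * (u * u)) (h3 : -2 ≤ s - l - u * u + u) :
    s ≤ 0 ∧ l ≤ 2 + s := by
  have a : s < u * u := by
    have : v * s < v * (u * u) := h1.trans_lt h2
    exact_mod_cast lt_of_mul_lt_mul_left this (by linarith)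
  have b : u = 1 := by
    by_contra e
    have u2 : 2 ≤ u := by omega
    have s1 : u * u - u - 1 ≤ s := by omega
    have s0 : 0 < s := by nlinarith
    have : (9 : ℝ) * s < l * l :=
      (mul_lt_mul_of_pos_right hv (by exact_mod_cast s0)).trans_le h1
    have c : 9 * s < l * l := by exact_mod_cast this
    have d : l ≤ u + 1 := by omega
    nlinarith
  subst b
  omega

variable (R : Rows L) (X : Xr L) (m : Nm L)
include R X

/-- a weak del Pezzo surface with a conic class has degree at most eight -/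
theorem con8 (hk : Nn (-m.k)) (hf : f ∈ CarZ L) (nf : Nn f) (df : Det m.A f) (sq : I2 f f = 0)
    (h1 : I2 m.k f < 0) (h2 : -2 ≤ I2 m.k f) : I2 m.k m.k ≤ 8 := by
  by_contra hv
  push Not at hv
  obtain ⟨χ, rr⟩ := X.eff R
  have kc := m.kcar
  obtain ⟨v, ev⟩ := I2_int' R m.kZ m.kZ
  obtain ⟨l, el⟩ := I2_int' R m.kZ hf
  rw [ev] at hv
  rw [el] at h1 h2
  have v9 : (9 : ℝ) ≤ v := by exact_mod_cast (by exact_mod_cast hv : (8 : ℤ) < v)
  have l1 : (l : ℝ) ≤ -1 := by exact_mod_cast Int.le_sub_one_of_lt (by exact_mod_cast h1 : l < 0)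
  obtain ⟨j, hj⟩ := exists_nat_gt (2 * |χ| + 2)
  have j0 : (0 : ℝ) ≤ j := j.cast_nonneg
  have ck : I2 (cn L 2) m.k = v := (m.I2_k m.kd).symm.trans ev
  have cf : I2 (cn L 2) f = l := (m.I2_k df).symm.trans el
  have hD : ((2 * l * j : ℤ) : ℝ) • m.k + ((-(j * v + 1) : ℤ) : ℝ) • f ∈ CarZ L :=
    add_mem (CarZ.zsmul m.kZ _) (CarZ.zsmul hf _)
  obtain ⟨u, u0, hu⟩ := rr _ hD f nf
    (by rw [lin_I2 R kc nf.car nf.car, cf, el, sq]; push_cast; nlinarith [mul_self_nonneg (l : ℝ)])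
    (by
      rw [lin_lin R kc nf.car, I2_lin R R.cnb kc nf.car, ck, cf, ev, el, sq]
      push_cast
      exact num1 v9 l1 h2 hj)
  have kp := lin_car kc nf.car (2 * l) (-v)
  have kd := lin_det R m.kd df kc nf.car (2 * l) (-v)
  obtain ⟨P, -, p⟩ := ex_neg R (hu.rep u0) (R.isb _ (CarZ.car hD)) kp
    (by rw [lin_lin R kc nf.car, ev, el, sq]; push_cast; nlinarith)
  have hP := kd.pos m.nn p.ne
  rw [dg_lin R kc nf.car] at p
  obtain ⟨t, et⟩ := R.int f hf P
  have t0 := nf.nn P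
  have k0 := hk.nn P
  rw [R.neg kc] at k0
  rw [et] at p t0
  have t1 : (1 : ℝ) ≤ t := by
    have : (0 : ℝ) < t := by
      by_contra e
      rw [le_antisymm (not_lt.1 e) t0] at p
      nlinarith
    exact_mod_cast (by exact_mod_cast this : (0 : ℤ) < t)
  have g := m.gen P hP
  have g0 : (0 : ℝ) ≤ pg P.κ 1 := Nat.cast_nonneg _
  set s := dg (m.c P) P with hs
  set c := dg m.k P with hc
  have cP := m.car hP
  have w := lin_car kc nf.car (-t * l) (t * v - c * l)
  have wd := lin_det R m.kd df kc nf.car (-t * l) (t * v - c * l)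
  have a1 : I2 m.k (m.c P) = c := m.I2_c' R hP kc m.kd
  have a2 : I2 (m.c P) ((-t * l : ℝ) • m.k + (t * v - c * l : ℝ) • f) =
      -t * l * c + (t * v - c * l) * t := by
    rw [m.I2_c hP wd, dg_lin R kc nf.car, et]
  have H := R.hi m.k kc _ (lin_car cP w (l * l) 1) (by rw [ev]; linarith) (by
    rw [I2_lin R (R.isb _ kc) cP w, a1, I2_lin R (R.isb _ kc) kc nf.car, ev, el]
    ring)
  rw [lin_lin R cP w, a2, lin_lin R kc nf.car, ev, el, sq, m.I2_c hP (m.cd P hP), ← hs] at H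
  exact num2 v9 l1 h2 t1 p k0 (by linarith) H

/-- on a minimal weak del Pezzo surface of degree more than nine there is a conic class -/
theorem conic (hk : Nn (-m.k)) (hv : 9 < I2 m.k m.k) (hm : ∀ E, ¬ m.Neg E) :
    ∃ P, 0 < dg m.A P ∧ dg (m.c P) P = 0 ∧ dg m.k P < 0 ∧ -2 ≤ dg m.k P := by
  obtain ⟨χ, rr⟩ := X.eff R
  have kc := m.kcar
  have kk : I2 (-m.k) (-m.k) = I2 m.k m.k := by
    rw [R.neg_l (R.isb _ kc) hk.car, R.neg_r (R.isb _ kc) kc, neg_neg]
  obtain ⟨e, he⟩ := exists_pt R X m (m.tfin R hk.car (X.big' R hk (by linarith))) fun P k => k.1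
  have ec := CarZ.car he.int
  set v := I2 m.k m.k with ev
  set s := √v with es
  have ss : s * s = v := Real.mul_self_sqrt (by linarith)
  have s3 : 3 < s := Real.lt_sqrt_of_sq_lt (by linarith)
  obtain ⟨a, ha⟩ := exists_nat_gt ((2 * |χ| + 2) / (s * (s - 3)))
  rw [div_lt_iff₀ (by nlinarith)] at ha
  have a0 : (0 : ℝ) ≤ a := a.cast_nonneg
  have ke := he.perp _ kc m.kd
  have ck : I2 (cn L 2) m.k = v := (m.I2_k m.kd).symm
  have hD : ((-a : ℤ) : ℝ) • m.k + ((-(⌊a * s⌋ + 1) : ℤ) : ℝ) • e ∈ CarZ L :=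
    add_mem (CarZ.zsmul m.kZ _) (CarZ.zsmul he.int _)
  have f1 := Int.floor_le (a * s)
  have f2 := Int.lt_floor_add_one (a * s)
  have as : 0 ≤ a * s := by positivity
  obtain ⟨u, u0, hu⟩ := rr _ hD _ hk
    (by
      rw [lin_I2 R kc ec hk.car, R.neg_r R.cnb kc, R.neg_r (R.isb _ kc) kc,
        R.neg_r (R.isb _ ec) kc, R.symm e ec _ kc, ke, ck]
      push_cast
      nlinarith)
    (by
      rw [lin_lin R kc ec, I2_lin R R.cnb kc ec, ck, he.can, ke, he.sq, ← ev, ← ss]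
      push_cast
      have := neg_abs_le χ
      have : ((⌊a * s⌋ : ℝ) + 1) * (⌊a * s⌋ + 1) ≤ (a * s + 1) * (a * s + 1) :=
        mul_self_le_mul_self (by linarith) (by linarith)
      nlinarith)
  obtain ⟨P, -, p⟩ := ex_neg R (hu.rep u0) (R.isb _ (CarZ.car hD)) (lin_car kc ec (-1) (-s))
    (by
      rw [lin_lin R kc ec, ke, he.sq, ← ev, ← ss]
      push_cast
      nlinarith)
  rw [dg_lin R kc ec] at p
  have k0 := hk.nn P
  rw [R.neg kc] at k0
  have e0 : 0 < dg e P := by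
    by_contra c
    nlinarith
  have hP : 0 < dg m.A P := m.nn.pos_of fun c => (he.exc P c).not_gt e0
  have k1 : dg m.k P < 0 := by
    refine lt_of_le_of_ne (by linarith) fun c => e0.ne' (he.off P ⟨hP, ?_⟩)
    rw [R.neg kc, c, neg_zero]
  obtain ⟨σ, eσ⟩ := R.int _ (m.cZ P hP) P
  obtain ⟨l, el⟩ := R.int _ m.kZ P
  obtain ⟨μ, eμ⟩ := R.int _ he.int P
  have g := he.gen P hP
  have g0 : (0 : ℝ) ≤ pg P.κ 1 := Nat.cast_nonneg _
  have H := R.hodge kc (m.car hP) (by linarith : 0 < I2 m.k m.k)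
  rw [m.I2_c hP (m.cd P hP), m.I2_c' R hP kc m.kd, ← ev, eσ, el] at H
  rw [eσ, el, eμ] at g
  rw [el, eμ] at p
  rw [eμ] at e0
  have k2 := k1
  rw [el] at k2
  obtain ⟨c1, c2⟩ := int_cases (s := σ) (l := -l) (u := μ) hv
    (by have : l < 0 := by exact_mod_cast k2
        omega)
    (by have : 0 < μ := by exact_mod_cast e0
        omega)
    (by push_cast; nlinarith)
    (by
      push_cast
      have : (-l : ℝ) * -l < (s * μ) * (s * μ) := mul_self_lt_mul_self (by linarith) (by linarith)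
      rw [← ss]
      linarith)
    (by have : (-2 : ℝ) ≤ σ - -l - μ * μ + μ := by linarith
        exact_mod_cast this)
  have σ0 : σ = 0 := by
    by_contra c
    exact hm P (m.neg_of R hP (by rw [eσ]; exact_mod_cast (by omega : σ < 0)) k1).1
  refine ⟨P, hP, by rw [eσ, σ0]; simp, k1, ?_⟩
  rw [el]
  exact_mod_cast (by omega : -2 ≤ l)

omit X in
theorem c_nn (hP : 0 < dg m.A P) (h : 0 ≤ dg (m.c P) P) : Nn (m.c P) :=
  ⟨m.car hP, fun Q => by
    by_cases e : Q = P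
    · rwa [e]
    · exact m.ne_nn R hP e⟩

omit X in
theorem ctr_nn (n : m.Neg E) (hk : Nn (-m.k)) : Nn (-(ctr R n).k) := by
  have : -(ctr R n).k = m.push E (-m.k) := by
    change -m.push E m.k = _
    rw [push, push, R.neg m.kcar, neg_add, neg_smul]
  rw [this]
  exact push_nn R n hk.car (fun Q _ => hk.nn Q) (hk.nn E)

omit X in
theorem ctr_sq (n : m.Neg E) : I2 (ctr R n).k (ctr R n).k = I2 m.k m.k + 1 := by
  change I2 (m.push E m.k) (m.push E m.k) = _
  rw [I2_push R n m.kcar m.kcar m.kd m.kd, n.can]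
  norm_num

/-- **the degree of a weak del Pezzo surface is at most nine** -/
theorem dpv (hk : Nn (-m.k)) : I2 m.k m.k ≤ 9 := by
  refine minimal R X (p := fun m => Nn (-m.k) → I2 m.k m.k ≤ 9) ?_ ?_ m hk
  · intro m hm hk
    by_contra hv
    obtain ⟨P, a, b, c, d⟩ := conic R X m hk (not_le.1 hv) hm
    have e := m.I2_c' R a m.kcar m.kd
    linarith [con8 R X m hk (m.cZ P a) (c_nn R m a b.ge) (m.cd P a)
      ((m.I2_c a (m.cd P a)).trans b) (e ▸ c) (e ▸ d), not_le.1 hv]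
  · intro m E n ih hk
    linarith [ih (ctr_nn R m n hk), ctr_sq R m n]

end Vale.Agent.P287D.Su
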