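import Vale.Agent.P287D.Su.St

/-!
# P287D: surfaces, perturbation, minimal numerical models, points
-/

set_option linter.unusedVariables false
set_option linter.unusedSectionVars false

open Set Function Filter Topology

noncomputable section

namespace Vale.Agent.P287D.Su

open Sf Sf.Nm

variable {L : Type} [Field L] [Algebra ℂ L] {Z β γ N D G A : BD L} {P Q E : Pl L}

theorem I2_dg (Z : BD L) (h : ∀ P, dg β P = dg γ P) : I2 Z β = I2 Z γ := by
  rw [I2_eq, I2_eq]
  exact finsum_congr fun P => by rw [h P]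

section rows

variable (R : Rows L)
include R

theorem ex_neg (h : Rep D G) (hD : IsB 1 D) (hγ : γ ∈ Car L) (k : I2 D γ < 0) :
    ∃ P, 0 < G P ∧ dg γ P < 0 := by
  by_contra e
  push Not at e
  rw [← R.congr_l hD h.prn hγ] at k
  refine k.not_ge (I2_nonneg' fun P => ?_)
  rcases (h.nonneg P).eq_or_lt with l | l
  · rw [← l]
    simp
  · exact mul_nonneg l.le (e P l)

theorem ex_pos (h : Rep D G) (hD : IsB 1 D) (hγ : γ ∈ Car L) (k : 0 < I2 D γ) :
    ∃ P, 0 < G P ∧ 0 < dg γ P := by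
  obtain ⟨P, a, b⟩ := ex_neg R h hD (neg_mem hγ) (by rw [R.neg_r hD hγ]; linarith)
  rw [R.neg hγ] at b
  exact ⟨P, a, by linarith⟩

theorem sum_r {ι : Type*} (T : Finset ι) {f : ι → BD L} (h : ∀ i ∈ T, f i ∈ Car L)
    (hγ : γ ∈ Car L) : I2 γ (∑ i ∈ T, f i) = ∑ i ∈ T, I2 γ (f i) := by
  rw [R.symm γ hγ _ (sum_mem h), R.sum_l T h hγ]
  exact Finset.sum_congr rfl fun i hi => R.symm _ (h i hi) _ hγ

theorem det_neg (h : Det N β) (hβ : β ∈ Car L) : Det N (-β) := fun P e => by
  rw [R.neg hβ, h P e, neg_zero]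

theorem nn_smul {c : ℝ} (h : Nn β) (hc : 0 ≤ c) : Nn (c • β) :=
  ⟨Submodule.smul_mem _ c h.car, fun P => by
    rw [R.smul c β h.car]
    exact mul_nonneg hc (h.nn P)⟩

/-- two models with the same curves -/
theorem same {m m' : Nm L} (h : Det m.A m'.A) (h' : Det m'.A m.A) :
    m'.k = m.k ∧ ∀ P, 0 < dg m.A P → m'.c P = m.c P := by
  have e : ∀ P, 0 < dg m.A P → 0 < dg m'.A P := fun P k => h'.pos m'.nn k.ne'
  exact ⟨R.mum_unique m.nn m.pos m'.kcar m.kcar (h.trans m'.kd) m.kd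
      fun P k => by rw [m'.ko P (e P k), m.ko P k],
    fun P k => R.mum_unique m.nn m.pos (m'.car (e P k)) (m.car k) (h.trans (m'.cd P (e P k)))
      (m.cd P k) fun Q l => by rw [m'.cδ P Q (e P k) (e Q l), m.cδ P Q k l]⟩

/-- a model over `m` without vertical curves of negative canonical degree is `m` -/
theorem base_det (m m' : Nm L) (h : Det m'.A m.A) (k : ∀ P ∈ m'.T m.A, 0 ≤ dg m'.k P) :
    Det m.A m'.A := fun P e => by
  by_contra l
  have l' := m'.nn.pos_of l
  have := m'.negat R m.nn m.pos h (sub_mem m.kcar m'.kcar)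
    (R.det_sub (h.trans m.kd) m'.kd m.kcar m'.kcar)
    (fun Q a => by rw [Pi.sub_apply, m.ko Q a, m'.ko Q (h.pos m'.nn a.ne'), sub_self])
    (fun Q a _ => by
      rw [R.sub m.kcar m'.kcar, m.kd Q a.2]
      linarith [k Q a]) l'
  rw [Pi.sub_apply, m'.ko P l'] at this
  linarith [m.ke P e]

/-- the arithmetic genus grows under contractions -/
theorem mono (m m' : Nm L) (h : Det m'.A m.A) (hf : (m'.T m.A).Finite) (hP : 0 < dg m.A P) :
    dg (m'.c P) P + dg m'.k P ≤ dg (m.c P) P + dg m.k P := by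
  refine Nm.ind R m.nn.car m.pos (p := fun m' => Det m'.A m.A →
    dg (m'.c P) P + dg m'.k P ≤ dg (m.c P) P + dg m.k P) ?_ ?_ m' h hf h
  · intro m' d f k _
    obtain ⟨a, b⟩ := same R (base_det R m m' d k) d
    rw [a, b P hP]
  · intro m' E n d e ih _
    have k : 0 < dg m'.A P := d.pos m'.nn hP.ne'
    refine le_trans ?_ (ih (det_push_of R n d e))
    change _ ≤ dg (m'.push E (m'.c P)) P + dg (m'.push E m'.k) P
    obtain ⟨z, hz⟩ := R.int _ (m'.cZ E n.pos) P
    rw [dg_push R n (m'.car k), dg_push R n m'.kcar, n.can, m'.symm R k n.pos, hz]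
    have : (z : ℝ) ≤ z * z := by exact_mod_cast (by nlinarith [Int.le_self_sq z] : z ≤ z * z)
    linarith

end rows

/-- `e` is the exceptional class of the blow up of a point of `m` outside the curves in `T` -/
structure Pt (m : Nm L) (T : Set (Pl L)) (e : BD L) : Prop where
  int : e ∈ CarZ L
  sq : I2 e e = -1
  can : I2 (cn L 2) e = -1
  perp : ∀ β ∈ Car L, Det m.A β → I2 β e = 0
  exc : ∀ P, dg m.A P = 0 → dg e P ≤ 0
  off : ∀ P ∈ T, dg e P = 0
  nn : ∀ P, 0 < dg m.A P → 0 ≤ dg e P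
  gen : ∀ P, 0 < dg m.A P →
    2 * (pg P.κ 1 : ℝ) - 2 ≤ dg (m.c P) P + dg m.k P - dg e P * dg e P + dg e P

variable (R : Rows L) (X : Xr L)
include R X

theorem Xr.big' (h : Nn N) (pos : 0 < I2 N N) : Big N := X.big N (X.nak N h) pos

theorem Xr.nn (h : Nn β) (h' : Nn γ) : 0 ≤ I2 β γ :=
  R.psef_nn (X.nak β h).psef (R.isb β h.car) h'

theorem Xr.eff : ∃ χ : ℝ, ∀ D ∈ CarZ L, ∀ A, Nn A → I2 (cn L 2) A < I2 D A →
    0 < χ + (I2 D D - I2 (cn L 2) D) / 2 → ∃ f, f ≠ 0 ∧ Sec D f := by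
  obtain ⟨χ, h⟩ := X.rr
  refine ⟨χ, fun D hD A hA a b => ?_⟩
  have c := CarZ.car hD
  have := h D hD A (X.nak A hA) (by rw [R.sub_l R.cnb (R.isb D c) hA.car]; linarith)
  rw [R.sub_l (R.isb D c) R.cnb c] at this
  have k : 0 < h0 D := by exact_mod_cast b.trans_le this
  have := Module.nontrivial_of_finrank_pos k
  obtain ⟨f, hf⟩ := exists_ne (0 : H0 D)
  exact ⟨f, fun e => hf (Subtype.ext e), mem_H0.1 f.2⟩

/-- perturbation of a numerically nef class of positive square -/
theorem numd (hN : Nn N) (pos : 0 < I2 N N) (hβ : β ∈ Car L) (hd : Det N β) :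
    ∃ ε : ℝ, 0 < ε ∧ Nn (N + ε • β) := by
  obtain ⟨δ, hδ, G, k⟩ := (X.big' R hN pos).exists_eff (neg_mem hβ)
  rw [smul_neg, sub_neg_eq_add] at k
  have c := add_mem hN.car (Submodule.smul_mem _ δ hβ)
  obtain ⟨m, d1, d2⟩ := R.ex2 hN.car hβ
  have f := m.fin G (R.isb G (k.car c))
  have ev : ∀ᶠ ε in 𝓝[>] (0 : ℝ), ∀ P ∈ {P | 0 < dg m.A P ∧ G P ≠ 0},
      0 ≤ dg N P + ε * dg β P := (eventually_all_finite f).2 fun P _ => by
    rcases (hN.nn P).eq_or_lt with l | l
    · exact .of_forall fun ε => by rw [hd P l.symm, ← l]; simp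
    · have : Tendsto (fun ε : ℝ => dg N P + ε * dg β P) (𝓝[>] 0) (𝓝 (dg N P + 0 * dg β P)) :=
        ((continuous_const.add (continuous_id.mul continuous_const)).tendsto 0).mono_left
          nhdsWithin_le_nhds
      rw [zero_mul, add_zero] at this
      exact (this.eventually (lt_mem_nhds l)).mono fun _ => le_of_lt
  obtain ⟨ε, a, b, e⟩ := (ev.and (Ioo_mem_nhdsGT hδ)).exists
  refine ⟨ε, b, add_mem hN.car (Submodule.smul_mem _ ε hβ), fun P => ?_⟩
  rw [R.add_smul hN.car hβ]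
  rcases (m.nn.nn P).eq_or_lt with l | l
  · rw [d1 P l.symm, d2 P l.symm]
    simp
  by_cases g : G P = 0
  · have := R.eff G (k.car c) k.nonneg P g
    rw [R.congr c k.prn, R.add_smul hN.car hβ] at this
    have n := hN.nn P
    by_cases s : 0 ≤ dg β P
    · positivity
    · nlinarith
  · exact a P ⟨l, g⟩

/-- induction down to a minimal model -/
theorem minimal {p : Nm L → Prop} (base : ∀ m : Nm L, (∀ E, ¬ m.Neg E) → p m)
    (step : ∀ (m : Nm L) E (h : m.Neg E), p (ctr R h) → p m) (m : Nm L) : p m := by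
  classical
  obtain ⟨T, hT, hs⟩ := X.fd m
  have key : ∀ (j r : ℕ), T.card < r + j → ∀ m' : Nm L, Det m.A m'.A → ∀ e : Fin r → BD L,
      (∀ i, e i ∈ Car L ∧ Det m.A (e i) ∧ ∀ β ∈ Car L, Det m'.A β → I2 (e i) β = 0) →
      (∀ i i', I2 (e i) (e i') = if i = i' then -1 else 0) → p m' := by
    intro j
    induction j with
    | zero =>
      intro r hr m' _ e h1 h2
      exfalso
      choose g g1 g2 using fun i => hs (e i) (h1 i).1 (h1 i).2.1
      have gc : ∀ i, g i ∈ Car L := fun i => Submodule.span_le.2 (fun γ k => hT γ k) (g1 i)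
      have li : LinearIndependent ℝ fun i => (⟨g i, g1 i⟩ : Submodule.span ℝ (T : Set (BD L))) := by
        rw [Fintype.linearIndependent_iff]
        intro a ha i
        have ha' : ∑ j, a j • g j = 0 := by simpa using congrArg Subtype.val ha
        have := sum_r R Finset.univ (f := fun j => a j • g j)
          (fun j _ => Submodule.smul_mem _ _ (gc j)) (h1 i).1
        rw [ha', R.prn_r _ (zero_mem _), Finset.sum_eq_single i (fun j _ ne => by
          rw [R.smul_r _ (R.isb _ (h1 i).1) (gc j), ← I2_dg _ (g2 j), h2, if_neg ne.symm,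
            mul_zero]) (by simp), R.smul_r _ (R.isb _ (h1 i).1) (gc i), ← I2_dg _ (g2 i), h2,
          if_pos rfl] at this
        linarith
      have := li.fintype_card_le_finrank.trans (finrank_span_finset_le_card T)
      rw [Fintype.card_fin] at this
      omega
    | succ j ih =>
      intro r hr m' d e h1 h2
      by_cases k : ∀ E, ¬ m'.Neg E
      · exact base m' k
      push Not at k
      obtain ⟨E, n⟩ := k
      have d' : Det m'.A (ctr R n).A := push_det R n m'.nn.car (.refl _)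
      have cE := m'.car n.pos
      have dE := m'.cd E n.pos
      refine step m' E n (ih (r + 1) (by omega) _ (d.trans d') (Fin.cons (m'.c E) e) ?_ ?_)
      · refine Fin.cases ⟨cE, d.trans dE, fun β a b => ?_⟩
          fun i => ⟨(h1 i).1, (h1 i).2.1, fun β a b => (h1 i).2.2 β a (d'.trans b)⟩
        exact (m'.I2_c n.pos (d'.trans b)).trans (b E (dg_push_self R n m'.nn.car))
      · refine Fin.cases (Fin.cases ?_ fun i => ?_) fun i => Fin.cases ?_ fun i' => ?_
        · simpa [m'.I2_c n.pos dE] using n.sq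
        · simpa [Fin.succ_ne_zero, (Fin.succ_ne_zero i).symm, R.symm _ cE _ (h1 i).1] using
            (h1 i).2.2 _ cE dE
        · simpa [Fin.succ_ne_zero] using (h1 i).2.2 _ cE dE
        · simpa using h2 i i'
  exact key (T.card + 1) 0 (by omega) m (.refl _) Fin.elim0 (fun i => i.elim0) fun i => i.elim0

/-- the blow up of a point outside finitely many curves -/
theorem exists_pt (m : Nm L) {T : Set (Pl L)} (hT : T.Finite) (h : ∀ P ∈ T, 0 < dg m.A P) :
    ∃ e, Pt m T e := by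
  obtain ⟨x, x1, x2⟩ := X.pt m T hT h
  obtain ⟨m₁, a, b, -⟩ := R.ex1 m.nn.car m.nn.car x
  have bg := X.big' R m.nn m.pos
  refine Nm.ind R m.nn.car m.pos (p := fun m' => (∃ x ∈ m'.T m.A, ∀ P ∈ T, m.c P x = 0) →
    ∃ e, Pt m T e) ?_ ?_ m₁ b (m₁.tfin R m.nn.car bg) ⟨x, ⟨a, x1⟩, x2⟩
  · rintro m' d f k ⟨x, a, -⟩
    exact absurd (base_det R m m' d k x a.2) a.1.ne'
  · rintro m' E n d e ih ⟨x, a, b⟩
    by_cases k : ∃ x ∈ (ctr R n).T m.A, ∀ P ∈ T, m.c P x = 0
    · exact ih k
    push Not at k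
    obtain rfl : x = E := by
      by_contra ne
      obtain ⟨P, c, c'⟩ := k x ⟨(pos_iff R n).2 ⟨a.1, ne⟩, a.2⟩
      exact c' (b P c)
    have cE := m'.car n.pos
    have dE := m'.cd x n.pos
    have z : ∀ P ∈ T, ∀ Q, 0 < m.c P Q → dg (m'.c x) Q = 0 := fun P c Q q => by
      have nn : ∀ Q, 0 ≤ m.c P Q * dg (m'.c x) Q := fun Q => by
        by_cases s : Q = x
        · rw [s, b P c, zero_mul]
        · exact mul_nonneg (m.c0 P (h P c) Q) (m'.ne_nn R n.pos s)
      have := R.le_I2 (R.isb _ (m.car (h P c))) cE nn Q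
      rw [m'.I2_c' R n.pos (m.car (h P c)) (d.trans (m.cd P (h P c))), m.cd P (h P c) x e] at this
      exact (mul_eq_zero.1 (le_antisymm this (nn Q))).resolve_left q.ne'
    have ne : ∀ P, 0 < dg m.A P → P ≠ x := fun P c s => c.ne' (s ▸ e)
    refine ⟨m'.c x, m'.cZ x n.pos, (m'.I2_c n.pos dE).trans n.sq, (m'.cn_c R n.pos).trans n.can,
      fun β c c' => (m'.I2_c' R n.pos c (d.trans c')).trans (c' x e), fun P c => ?_,
      fun P c => z P c P (by rw [m.c_self (h P c)]; exact one_pos),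
      fun P c => m'.ne_nn R n.pos (ne P c), fun P c => ?_⟩
    · by_cases s : P = x
      · rw [s, n.sq]
        norm_num
      rcases (m'.nn.nn P).eq_or_lt with l | l
      · exact (dE P l.symm).le
      obtain ⟨Q, q, q'⟩ := k P ⟨(pos_iff R n).2 ⟨l, s⟩, c⟩
      exact (z Q q P ((m.c0 Q (h Q q) P).lt_of_ne' q')).le
    · have l : 0 < dg m'.A P := d.pos m'.nn c.ne'
      have := mono R m (ctr R n) (det_push_of R n d e) ((ctr R n).tfin R m.nn.car bg) c
      change dg (m'.push x (m'.c P)) P + dg (m'.push x m'.k) P ≤ _ at this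
      rw [dg_push R n (m'.car l), dg_push R n m'.kcar, n.can, m'.symm R l n.pos] at this
      linarith [m'.gen P l]

end Vale.Agent.P287D.Su
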