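import Vale.Agent.P287D.Su.Mov
import Vale.Agent.P287D.Sf.Row
import Vale.Agent.P287D.Sh.Bpf
import Vale.Agent.P287D.Pc.Ns
import Vale.Agent.P287D.Ad.Main

/-!
# P287D: the minimal model programme for surfaces, del Pezzo surfaces (the rows)
-/

set_option linter.unusedVariables false

open Set Function

noncomputable section

namespace Vale.Agent.P287D.Su

open Sf Sh

variable {L : Type} [Field L] [Algebra ℂ L] {Λ Γ β : BD L}

/-- a curve has places outside a finite set -/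
theorem exists_off (hL : FF L 1) (h : Smp β) (k : 0 < I1 β) {T : Set (Pl L)} (hT : T.Finite) :
    ∃ Q, Q ∉ T := by
  obtain ⟨G, a, b⟩ := h.exists_rep hT
  by_contra e
  push Not at e
  have : G = 0 := funext fun P => b P (e P)
  have z := Cv.I1_prn hL (neg_mem a.prn)
  rw [this, zero_sub, neg_neg] at z
  exact k.ne' z

variable (hL : FF L 2)
include hL

theorem pt (m : Nm L) (T : Set (Pl L)) (hT : T.Finite) (h : ∀ P ∈ T, 0 < dg m.A P) :
    ∃ x, dg m.A x = 0 ∧ ∀ P ∈ T, m.c P x = 0 := by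
  have R := Sf.rows hL
  have s := nm_smp hL R m
  obtain ⟨G, a, b⟩ := s.exists_rep hT
  obtain ⟨P, c, d⟩ := ex_pos R a (R.isb _ m.nn.car) m.nn.car m.pos
  have f := Bm.ff_κ hL P
  obtain ⟨Q, q⟩ := exists_off f (res_smp hL P s) d
    (hT.biUnion fun t _ => (Cv.car_iff f).1 (Aj.res_car P (m.c t)))
  obtain ⟨x, ⟨ne, fo⟩, -, cl, -⟩ := a2 1 L hL P Q (m.c '' T) m.A 0 (hT.image _)
    (by rintro _ ⟨t, ht, rfl⟩; exact m.car (h t ht)) m.nn.car
  refine ⟨x, m.nn.zero_of fun e => ?_, fun t ht => ?_⟩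
  · have := cl.pos (nm_dsc hL R m (m.car d) (m.cd P d)) (m.c0 P d) (by rw [m.c_self d]; exact one_pos)
    rw [m.cδ P x d e, Pl.δ_ne ne] at this
    exact this.false
  · have e : res P (m.c t) Q = 0 := by_contra fun e => q (mem_biUnion ht e)
    have n : P ≠ t := fun e => c.ne' (b P (e ▸ ht))
    rw [fo _ ⟨t, ht, rfl⟩, e, m.cδ t P (h t ht) d, Pl.δ_ne n, zero_mul, add_zero]

/-- the additional facts hold -/
theorem xr : Xr L where
  nak β h := nef_of hL h
  big β h k := big_of hL ((Sf.rows hL).nn_nef h) k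
  rr := let ⟨χ, h, _⟩ := Sr.rr2 L hL; ⟨χ, h⟩
  fd m := by
    have R := Sf.rows hL
    obtain ⟨T, a, b⟩ := Pc.fin hL (nm_smp hL R m)
    have c : ∀ γ ∈ T, γ ∈ Car L := fun γ k => (R.det_dsc (a γ k) m.nn.car).1
    refine ⟨T, c, fun β hβ d => ?_⟩
    obtain ⟨γ, g, n, n'⟩ := b β (nm_dsc hL R m hβ d)
    have gc : γ ∈ Car L := Submodule.span_le.2 c g
    refine ⟨γ, g, fun P => ?_⟩
    have h1 := (R.nn_nef n).nn P
    have h2 := (R.nn_nef n').nn P
    rw [R.neg (sub_mem hβ gc)] at h2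
    rw [R.sub hβ gc] at h1 h2
    linarith
  pt := pt hL

/-- a terminal surface is a numerical smooth model -/
theorem nm_of_term (h : Term 1 Λ Γ) : ∃ m : Nm L, Sf.Det m.A Λ ∧ Sf.Det Λ m.A ∧ m.k = Γ := by
  have R := Sf.rows hL
  have n := R.nn_smp h.smp
  obtain ⟨c, d⟩ := R.det_dsc h.hull.1 n.car
  obtain ⟨m, a, -, -, b⟩ := R.minres n h.big
  have le := b Γ c d fun P e => (h.hull.2 P (on_iff.2 e)).ge
  have a' : Sf.Det Λ m.A := fun P e => m.nn.zero_of fun k => by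
    have := h.pos P fun o => (on_iff.1 o).ne' e
    have l := le P
    rw [m.ko P k] at l
    exact (sub_pos.1 this).not_ge l
  exact ⟨m, a, a', R.mum_unique m.nn m.pos m.kcar c m.kd (a.trans d) fun P k => by
    rw [m.ko P k, h.hull.2 P (on_iff.2 (a'.pos n k.ne'))]⟩

/-- the minimal resolution of a canonical weak del Pezzo surface is crepant -/
theorem nm_of_can (h : Nef (-Γ)) (b : Big (-Γ)) (c : ∀ P, 0 ≤ dsc 2 Γ P) (d : Bdy 1 (-Γ) Γ) :
    ∃ m : Nm L, m.k = Γ := by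
  have R := Sf.rows hL
  have n := R.nn_nef h
  have g : Γ ∈ Car L := neg_mem_iff.1 n.car
  have e : Sf.Det (-Γ) Γ := by simpa using det_neg R (.refl (-Γ)) n.car
  obtain ⟨m, a, -, -, k⟩ := R.minres n b
  have le := k Γ g e fun P p => sub_nonpos.1 (d P (on_iff.2 p))
  exact ⟨m, R.mum_unique m.nn m.pos m.kcar g m.kd (a.trans e) fun P p =>
    le_antisymm (le P) (by rw [m.ko P p]; exact sub_nonneg.1 (c P))⟩

omit hL

/-- **DPV** -/
theorem dpv' : DPV := fun K _ _ hK Λ Γ h n => by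
  obtain ⟨m, -, -, rfl⟩ := nm_of_term hK h
  exact dpv (Sf.rows hK) (xr hK) m ((Sf.rows hK).nn_nef n)

/-- **VOL2** -/
theorem vol2 : VOL2 := fun K _ _ hK Γ n b c d => by
  obtain ⟨m, rfl⟩ := nm_of_can hK n b c d
  have R := Sf.rows hK
  refine ⟨m.kZ, ?_⟩
  rw [vol_two, R.neg_l (R.isb _ m.kcar) n.car, R.neg_r (R.isb _ m.kcar) m.kcar, neg_neg]
  exact dpv R (xr hK) m (R.nn_nef n)

/-- **CON8** -/
theorem con8' : CON8 := fun K _ _ hK Λ Γ f h n a b c d e g => by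
  obtain ⟨m, k, -, rfl⟩ := nm_of_term hK h
  have R := Sf.rows hK
  exact con8 R (xr hK) m (R.nn_nef n) a (R.nn_nef b) (k.trans (R.det_dsc c h.smp.car).2) d e g

/-- **MOV** -/
theorem mov' : MOV := fun K _ _ hK Λ Γ h n => by
  obtain ⟨m, k, k', rfl⟩ := nm_of_term hK h
  have R := Sf.rows hK
  obtain ⟨l, a, b, c, d⟩ := mov R (xr hK) m n
  have s := R.nn_smp h.smp
  rw [← m.I2_k c] at d
  exact ⟨l, a, nef_of hK b, dsc_of hK R s h.big m.kcar
    (fun P => neg_one_lt_zero.trans_le (dsc_k m P))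
    (fun P q => (sub_eq_zero.2 (m.ko P (k.pos m.nn q.ne')).symm).le)
    (fun P q => (m.kd P (k' P q)).le) b.car (k'.trans c), d⟩

end Vale.Agent.P287D.Su
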